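import Vale.Agent.P110.MainFinal
import Vale.Agent.P110.TorusPoly
import Vale.Agent.P110.Arith
import Vale.Agent.P110.Packing
import Vale.Agent.P110.Osc
import Vale.Agent.P110.Smoothing
import Vale.Agent.P110.Rounding

/-!
# P110: ultraflat Littlewood polynomials with real coefficients exist.
-/

open Filter

namespace Vale.Agent.Results.P110.UltraflatExists

/-- There is an ultraflat sequence of real Littlewood polynomials. -/
theorem result : ∃ (N : ℕ → ℕ) (ε : (n : ℕ) → Fin (N n) → ℝ),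
    Tendsto N atTop atTop ∧ (∀ n k, ε n k = 1 ∨ ε n k = -1) ∧
    ∀ c : ℝ, 0 < c → ∀ᶠ n in atTop, ∀ z : ℂ, ‖z‖ = 1 →
      (1 - c) * Real.sqrt (N n) ≤ ‖∑ k, (ε n k : ℂ) * z ^ (k : ℕ)‖ ∧
      ‖∑ k, (ε n k : ℂ) * z ^ (k : ℕ)‖ ≤ (1 + c) * Real.sqrt (N n) :=
  Vale.Agent.P110.exists_ultraflat Vale.Agent.P110.rounding Vale.Agent.P110.torusPoly
    Vale.Agent.P110.arith Vale.Agent.P110.gauss Vale.Agent.P110.packing Vale.Agent.P110.osc
    Vale.Agent.P110.smoothing

end Vale.Agent.Results.P110.UltraflatExists
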